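import Vale.Agent.P242W39.Core
import Vale.Agent.P242W.Rows

/-!
# P242W: the rows SPD, ENG, KEY
-/

open MeasureTheory Set Filter Topology unitInterval
open scoped ENNReal NNReal

set_option linter.unusedSectionVars false

universe u

noncomputable section

namespace Vale.Agent.P242W39

open Vale.Agent.P242W Vale.Agent.P242W70

variable (X : Type u) [MetricSpace X]

theorem spd : SPD X := fun γ g hg h => by
  let v : ℝ → ℝ := fun r => g (projIcc 0 1 zero_le_one r)
  have hv : ∀ t : I, v t = g t := fun t => by simp only [v, projIcc_val]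
  have h1 : IntervalIntegrable v volume 0 1 := by
    rw [intervalIntegrable_iff_integrableOn_Icc_of_le zero_le_one]
    refine (measurePreserving_coe.integrable_comp_emb measurableEmbedding_coe).1 ?_
    rwa [show v ∘ Subtype.val = g from funext hv]
  filter_upwards [speed_le γ h1 fun s t hst => by
    rw [← setIntegral_Icc v hst]
    simpa only [hv] using h s t hst] with t ht
  rwa [hv, ← Real.enorm_eq_ofReal_abs] at ht

variable [CompleteSpace X] [SecondCountableTopology X] [MeasurableSpace X] [BorelSpace X]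

theorem Ed_eq (γ : C(I, X)) : P242W72.Ed γ = Ed γ := by
  refine iSup_congr fun k => ?_
  have e : ∀ j, P242W72.dy k j = dy k j := fun j => Subtype.ext (by
    change max 0 (min 1 _) = min _ 1
    rw [min_comm, max_eq_right (le_min (by positivity) zero_le_one)])
  simp only [e]
  rfl

theorem eng : ENG X := fun γ h => by
  rw [Ed_eq] at h ⊢
  exact ac_of_Ed γ h.ne

variable [MeasurableSpace C(I, X)] [BorelSpace C(I, X)]

theorem key : KEY X := fun m _ x R hR f G h hf hm B N hB h0 hN0 hN => by
  have hD : Dual m h N := fun u g h1 h2 h3 h4 h5 h6 => by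
    obtain ⟨K, hK⟩ := h1
    obtain ⟨b, hb⟩ := h2
    obtain ⟨c, hc⟩ := h5
    refine hN u g ⟨⟨K, hK⟩, MemLp.of_bound hK.continuous.aestronglyMeasurable b
      (Eventually.of_forall hb), MemLp.of_bound h3.aestronglyMeasurable c
      (Eventually.of_forall fun y => ?_), Eventually.of_forall fun y => ⟨h4 y, h6 y⟩⟩
    rw [Real.norm_eq_abs, abs_of_nonneg (h4 y)]
    exact hc y
  have hA : 0 ≤ ∫ y, G y ^ 2 ∂m := integral_nonneg fun y => sq_nonneg _
  have h1 : ∀ c : ℝ, 0 < c →
      c * ∫ y, f y * h y ∂m ≤ (∫ y, G y ^ 2 ∂m + (c * N) ^ 2) / 2 := fun c hc => by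
    have h2 := core (H := c * B) hR hf (hm.const_mul c).aestronglyMeasurable
      (Eventually.of_forall fun y => by
        rw [abs_mul, abs_of_pos hc]
        exact mul_le_mul_of_nonneg_left (hB y) hc.le)
      (by rw [integral_const_mul, h0, mul_zero]) (dual_smul hD hc.le)
    simp only [mul_left_comm _ c] at h2
    rwa [integral_const_mul] at h2
  rw [← Real.sq_sqrt hA] at h1
  have ha := Real.sqrt_nonneg (∫ y, G y ^ 2 ∂m)
  generalize √(∫ y, G y ^ 2 ∂m) = a at *
  generalize ∫ y, f y * h y ∂m = J at *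
  refine le_of_forall_pos_le_add fun ε hε => ?_
  obtain ⟨δ, hδ, hδ1, hδ2⟩ : ∃ δ : ℝ, 0 < δ ∧ δ ≤ 1 ∧ δ * (N + a + 1) ≤ ε :=
    ⟨min 1 (ε / (N + a + 1)), by positivity, min_le_left _ _,
      (le_div_iff₀ (by positivity)).1 (min_le_right _ _)⟩
  have h3 := h1 ((a + δ) / (N + δ)) (by positivity)
  have h4 : (a + δ) / (N + δ) * N ≤ a + δ := by
    rw [div_mul_eq_mul_div, div_le_iff₀ (by positivity)]
    gcongr
    linarith
  have h5 : ((a + δ) / (N + δ) * N) ^ 2 ≤ (a + δ) ^ 2 := by gcongr
  have h6 : a ^ 2 ≤ (a + δ) ^ 2 := by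
    gcongr
    linarith
  have h7 : (a + δ) / (N + δ) * J ≤ (a + δ) ^ 2 := by linarith
  rw [div_mul_eq_mul_div, div_le_iff₀ (by positivity), sq, mul_assoc,
    mul_le_mul_iff_right₀ (by positivity)] at h7
  nlinarith

end Vale.Agent.P242W39
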