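import Vale.Agent.P242W39.Lis3
import Vale.Agent.P242W.Defs
import Mathlib.MeasureTheory.Integral.IntervalIntegral.LebesgueDifferentiationThm

/-!
# P242W: the test plan of a curve of measures
-/

open MeasureTheory Set Filter Topology unitInterval
open scoped ENNReal NNReal

set_option linter.unusedSectionVars false

universe u

noncomputable section

namespace Vale.Agent.P242W39

open Vale.Agent.P242W

variable {X : Type u} [MetricSpace X]

theorem setIntegral_Icc (v : ℝ → ℝ) {s t : I} (hst : s ≤ t) :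
    ∫ r in Icc s t, v r = ∫ r in (s : ℝ)..t, v r := by
  have h := measurePreserving_coe.setIntegral_preimage_emb measurableEmbedding_coe v
    (Icc (s : ℝ) t)
  rw [intervalIntegral.integral_of_le hst, ← integral_Icc_eq_integral_Ioc]
  rw [Measure.restrict_restrict measurableSet_Icc,
    inter_eq_left.2 (Icc_subset_Icc s.2.1 t.2.2)] at h
  exact h

/-- the metric speed is bounded by every admissible function -/
theorem speed_le (γ : C(I, X)) {v : ℝ → ℝ} (hv : IntervalIntegrable v volume 0 1)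
    (h : ∀ s t : I, s ≤ t → dist (γ s) (γ t) ≤ ∫ r in (s : ℝ)..t, v r) :
    ∀ᵐ t : I, speed γ t ≤ ENNReal.ofReal |v t| := by
  have h1 : ∀ᵐ x ∂volume.restrict (Icc (0 : ℝ) 1),
      HasDerivAt (fun x => ∫ t in (0 : ℝ)..x, v t) (v x) x := by
    rw [ae_restrict_iff' measurableSet_Icc]
    filter_upwards [hv.ae_hasDerivAt_integral] with x hx hx'
    exact hx (by rwa [uIcc_of_le zero_le_one]) 0 left_mem_uIcc
  have hi : ∀ x : I, IntervalIntegrable v volume 0 x := fun x =>
    hv.mono_set (uIcc_subset_uIcc left_mem_uIcc (by rw [uIcc_of_le zero_le_one]; exact x.2))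
  filter_upwards [measurePreserving_coe.quasiMeasurePreserving.ae h1] with t ht
  have h2 : Tendsto (fun s : I => (s : ℝ)) (𝓝[≠] t) (𝓝[≠] (t : ℝ)) :=
    tendsto_nhdsWithin_iff.2 ⟨(continuous_subtype_val.tendsto t).mono_left nhdsWithin_le_nhds,
      eventually_nhdsWithin_of_forall fun s hs hs' => hs (Subtype.ext hs')⟩
  have h3 := ENNReal.tendsto_ofReal ((hasDerivAt_iff_tendsto_slope.1 ht).comp h2).abs
  refine le_of_forall_gt_imp_ge_of_dense fun c hc => limsup_le_of_le (by isBoundedDefault) ?_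
  filter_upwards [h3.eventually (gt_mem_nhds hc), self_mem_nhdsWithin] with s hs hst
  refine le_trans ?_ hs.le
  have hd : 0 < dist s t := dist_pos.2 hst
  rw [edist_dist, edist_dist, ← ENNReal.ofReal_div_of_pos hd, Function.comp_apply, slope_def_field,
    abs_div, ← Real.dist_eq (s : ℝ), ← Subtype.dist_eq]
  refine ENNReal.ofReal_le_ofReal (div_le_div_of_nonneg_right ?_ hd.le)
  rcases le_total s t with h4 | h4
  · rw [abs_sub_comm, intervalIntegral.integral_interval_sub_left (hi t) (hi s)]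
    exact (h s t h4).trans (le_abs_self _)
  · rw [dist_comm, intervalIntegral.integral_interval_sub_left (hi s) (hi t)]
    exact (h t s h4).trans (le_abs_self _)

variable [CompleteSpace X] [SecondCountableTopology X] [MeasurableSpace X] [BorelSpace X]

theorem ac_of_Ed (γ : C(I, X)) (h : Ed γ ≠ ∞) : IsAC 2 γ ∧ ∫⁻ t, speed γ t ^ 2 ≤ Ed γ := by
  obtain ⟨v, hm, h0, h1, h2, h3⟩ := exists_bound γ h
  rw [Measure.restrict_congr_set Ioc_ae_eq_Icc] at h1 h2
  refine ⟨⟨fun t => v t, h1.comp_measurePreserving measurePreserving_coe, fun s t hst => ?_⟩, ?_⟩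
  · rw [setIntegral_Icc v hst]
    exact h3 s t hst
  · refine le_trans ?_ h2
    rw [← measurePreserving_coe.lintegral_comp (by fun_prop)]
    refine lintegral_mono_ae ?_
    filter_upwards [speed_le γ ((intervalIntegrable_iff_integrableOn_Icc_of_le zero_le_one).2
      (h1.integrable one_le_two)) h3] with t ht
    rw [← sq_abs, ENNReal.ofReal_pow (abs_nonneg _)]
    gcongr

/-- **The test plan** of a curve of measures with bounded densities that is Lipschitz for the
Wasserstein distance. -/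
theorem exists_plan [MeasurableSpace C(I, X)] [BorelSpace C(I, X)] (m : Measure X)
    [IsFiniteMeasure m] (C : ℝ≥0) (μ : ℝ → Measure X) {L : ℝ}
    (hp : ∀ t ∈ Icc (0 : ℝ) 1, IsProbabilityMeasure (μ t)) (hm : ∀ t ∈ Icc (0 : ℝ) 1, μ t ≤ C • m)
    (hW : ∀ s ∈ Icc (0 : ℝ) 1, ∀ t ∈ Icc (0 : ℝ) 1, s ≤ t → ∃ q : Measure (X × X),
      q.map Prod.fst = μ s ∧ q.map Prod.snd = μ t ∧
        ∫⁻ z, ENNReal.ofReal (dist z.1 z.2 ^ 2) ∂q ≤ ENNReal.ofReal (L ^ 2 * (t - s) ^ 2)) :
    ∃ π : Measure C(I, X), IsTestPlan m π ∧ π.map (fun γ => γ 0) = μ 0 ∧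
      π.map (fun γ => γ 1) = μ 1 ∧ (∀ t : I, π.map (fun γ => γ t) ≤ C • m) ∧
      ∫⁻ γ, ∫⁻ t, speed γ t ^ 2 ∂volume ∂π ≤ ENNReal.ofReal (L ^ 2) := by
  obtain ⟨π, h1, h2, h3, h4, h5⟩ := lisini (C • m) μ hp hm hW
  have h6 : ∀ᵐ γ ∂π, IsAC 2 γ ∧ ∫⁻ t, speed γ t ^ 2 ≤ Ed γ := by
    filter_upwards [ae_lt_top measurable_Ed (h5.trans_lt ENNReal.ofReal_lt_top).ne] with γ hγ
    exact ac_of_Ed γ hγ.ne
  have h7 := (lintegral_mono_ae (h6.mono fun γ hγ => hγ.2)).trans h5
  exact ⟨π, ⟨h1, ⟨C, h4⟩, h6.mono fun γ hγ => hγ.1, h7.trans_lt ENNReal.ofReal_lt_top⟩, h2, h3, h4,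
    h7⟩

end Vale.Agent.P242W39
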