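import Vale.Agent.P242W39.Plan
import Vale.Agent.P242W70.Kuw

/-!
# P242W: the duality bound for weak upper gradients
-/

open MeasureTheory Set Filter Topology unitInterval
open scoped ENNReal NNReal

set_option linter.unusedSectionVars false

universe u

noncomputable section

namespace Vale.Agent.P242W39

open Vale.Agent.P242W Vale.Agent.P242W70

variable {X : Type u} [MetricSpace X] [CompleteSpace X] [SecondCountableTopology X]
  [MeasurableSpace X] [BorelSpace X] [MeasurableSpace C(I, X)] [BorelSpace C(I, X)]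

theorem young (a b : ℝ≥0∞) {l : ℝ} (hl : 0 < l) :
    a * b ≤ ENNReal.ofReal (l / 2) * a ^ 2 + ENNReal.ofReal (1 / (2 * l)) * b ^ 2 := by
  have h1 : ENNReal.ofReal (l / 2) ≠ 0 := by simpa using hl
  have h2 : ENNReal.ofReal (1 / (2 * l)) ≠ 0 := by simpa using hl
  rcases eq_or_ne a ∞ with rfl | ha
  · simp [ENNReal.mul_top h1]
  rcases eq_or_ne b ∞ with rfl | hb
  · rw [ENNReal.top_pow two_ne_zero, ENNReal.mul_top h2, add_top]
    exact le_top
  rw [← ENNReal.ofReal_toReal ha, ← ENNReal.ofReal_toReal hb]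
  have ha0 := ENNReal.toReal_nonneg (a := a)
  have hb0 := ENNReal.toReal_nonneg (a := b)
  generalize a.toReal = x at *
  generalize b.toReal = y at *
  rw [← ENNReal.ofReal_mul ha0, ← ENNReal.ofReal_pow ha0, ← ENNReal.ofReal_pow hb0,
    ← ENNReal.ofReal_mul (by positivity), ← ENNReal.ofReal_mul (by positivity),
    ← ENNReal.ofReal_add (by positivity) (by positivity)]
  refine ENNReal.ofReal_le_ofReal ?_
  have h3 : l / 2 * x ^ 2 + 1 / (2 * l) * y ^ 2 - x * y = (l * x - y) ^ 2 / (2 * l) := by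
    field_simp
    ring
  have h4 : 0 ≤ (l * x - y) ^ 2 / (2 * l) := by positivity
  linarith

theorem lint_ev {m : Measure X} {π : Measure C(I, X)} [SFinite π] {C : ℝ≥0}
    (h : ∀ t : I, π.map (fun γ => γ t) ≤ C • m) {Φ : X → ℝ≥0∞} (hΦ : Measurable Φ) :
    ∫⁻ γ, ∫⁻ t, Φ (γ t) ∂volume ∂π ≤ C * ∫⁻ x, Φ x ∂m := by
  have hm : Measurable fun z : C(I, X) × I => Φ (z.1 z.2) :=
    hΦ.comp (continuous_eval (F := C(I, X))).measurable
  rw [lintegral_lintegral_swap hm.aemeasurable]
  refine (lintegral_mono (g := fun _ => C * ∫⁻ x, Φ x ∂m) fun t => ?_).trans (by simp)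
  rw [← lintegral_map hΦ (continuous_eval_const t).measurable]
  refine (lintegral_mono' (h t) le_rfl).trans (le_of_eq ?_)
  rw [lintegral_smul_measure]
  rfl

theorem lineInt_le {m : Measure X} {π : Measure C(I, X)} [SFinite π] {C : ℝ≥0}
    (h : ∀ t : I, π.map (fun γ => γ t) ≤ C • m) {G : X → ℝ} (hG : MemLp G 2 m) {l : ℝ}
    (hl : 0 < l) : ∫⁻ γ, lineInt (fun x => ENNReal.ofReal (G x)) γ ∂π ≤
      ENNReal.ofReal (l / 2) * (C * ENNReal.ofReal (∫ x, G x ^ 2 ∂m)) +
        ENNReal.ofReal (1 / (2 * l)) * ∫⁻ γ, ∫⁻ t, speed γ t ^ 2 ∂volume ∂π := by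
  classical
  obtain ⟨G', hG', he⟩ := hG.1.aemeasurable
  let S := toMeasurable m {x | ¬ G x = G' x}
  let Φ : X → ℝ≥0∞ := fun x => if x ∈ S then ∞ else ENNReal.ofReal (G' x ^ 2)
  have hΦ : Measurable Φ :=
    Measurable.ite (measurableSet_toMeasurable _ _) measurable_const (by fun_prop)
  have h1 : ∀ x, ENNReal.ofReal (G x) ^ 2 ≤ Φ x := fun x => by
    by_cases hx : x ∈ S
    · simp only [Φ, if_pos hx, le_top]
    · have h2 : G x = G' x := by_contra fun h3 => hx (subset_toMeasurable _ _ h3)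
      simp only [Φ, if_neg hx, ← h2]
      rw [← sq_abs, ENNReal.ofReal_pow (abs_nonneg _)]
      gcongr
      exact le_abs_self _
  have h2 : ∫⁻ x, Φ x ∂m = ENNReal.ofReal (∫ x, G x ^ 2 ∂m) := by
    rw [ofReal_integral_eq_lintegral_ofReal hG.integrable_sq
      (Eventually.of_forall fun x => sq_nonneg _)]
    have h3 : ∀ᵐ x ∂m, x ∉ S := by
      rw [← measure_eq_zero_iff_ae_notMem, measure_toMeasurable]
      exact he
    refine lintegral_congr_ae ?_
    filter_upwards [h3, he] with x hx hx'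
    simp only [Φ, if_neg hx, hx']
  have hm : Measurable fun z : C(I, X) × I => Φ (z.1 z.2) :=
    hΦ.comp (continuous_eval (F := C(I, X))).measurable
  calc ∫⁻ γ, lineInt (fun x => ENNReal.ofReal (G x)) γ ∂π
      ≤ ∫⁻ γ, ENNReal.ofReal (l / 2) * (∫⁻ t, Φ (γ t)) +
          ENNReal.ofReal (1 / (2 * l)) * ∫⁻ t, speed γ t ^ 2 ∂volume ∂π := by
        refine lintegral_mono fun γ => ?_
        rw [← lintegral_const_mul' _ _ ENNReal.ofReal_ne_top,
          ← lintegral_const_mul' _ _ ENNReal.ofReal_ne_top,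
          ← lintegral_add_left (f := fun t => ENNReal.ofReal (l / 2) * Φ (γ t))
            ((hΦ.comp γ.continuous.measurable).const_mul _)]
        refine lintegral_mono fun t => (young _ _ hl).trans ?_
        gcongr
        exact h1 _
    _ ≤ _ := by
        rw [lintegral_add_left (hm.lintegral_prod_right'.const_mul _),
          lintegral_const_mul' _ _ ENNReal.ofReal_ne_top,
          lintegral_const_mul' _ _ ENNReal.ofReal_ne_top, ← h2]
        gcongr
        exact lint_ev h hΦ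

theorem dual_smul {m : Measure X} {h : X → ℝ} {N c : ℝ} (hN : Dual m h N) (hc : 0 ≤ c) :
    Dual m (fun x => c * h x) (c * N) := fun u g h1 h2 h3 h4 h5 h6 => by
  simp only [mul_left_comm _ c]
  rw [integral_const_mul, mul_assoc]
  exact mul_le_mul_of_nonneg_left (hN u g h1 h2 h3 h4 h5 h6) hc

variable {m : Measure X} [IsFiniteMeasure m] {x0 : X} {R : ℝ} (hR : ∀ᵐ x ∂m, dist x x0 ≤ R)
  {f G h : X → ℝ} (hf : IsIntUG m f G) {H N : ℝ} (hm : AEStronglyMeasurable h m)
  (hH : ∀ᵐ x ∂m, |h x| ≤ H) (h0 : ∫ x, h x ∂m = 0) (hN : Dual m h N)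

include hR hf hm hH h0 hN

theorem core_aux (hZ : 0 < m.real univ) (hH0 : 0 ≤ H) {M : ℝ} (hM : H < M) :
    ∫ x, f x * h x ∂m ≤ (M + H) / M * (∫ x, G x ^ 2 ∂m) / 2 + M / (M - H) * N ^ 2 / 2 := by
  have hM0 : 0 < M := hH0.trans_lt hM
  have hMH : 0 < M - H := sub_pos.2 hM
  obtain ⟨Z, hZe⟩ : ∃ Z, Z = M * m.real univ := ⟨_, rfl⟩
  have hZ0 : 0 < Z := hZe ▸ mul_pos hM0 hZ
  have hi : Integrable h m := Integrable.of_bound hm H hH
  let ρ : ℝ → X → ℝ := fun t x => (M + t * h x) / Z
  have hρ : ∀ t, Integrable (ρ t) m := fun t =>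
    ((integrable_const M).add (hi.const_mul t)).div_const Z
  have hb : ∀ t ∈ Icc (0 : ℝ) 1, ∀ᵐ x ∂m, (M - H) / Z ≤ ρ t x ∧ ρ t x ≤ (M + H) / Z :=
    fun t ht => hH.mono fun x hx => by
      have h1 : |t * h x| ≤ H := by
        rw [abs_mul, abs_of_nonneg ht.1]
        exact (mul_le_of_le_one_left (abs_nonneg _) ht.2).trans hx
      have h2 := abs_le.1 h1
      constructor <;> refine div_le_div_of_nonneg_right ?_ hZ0.le <;> linarith [h2.1, h2.2]
  have hc : 0 < (M - H) / Z := div_pos hMH hZ0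
  let μ : ℝ → Measure X := fun t => m.withDensity fun x => ENNReal.ofReal (ρ t x)
  have hp : ∀ t ∈ Icc (0 : ℝ) 1, IsProbabilityMeasure (μ t) := fun t ht => ⟨by
    rw [withDensity_apply _ MeasurableSet.univ, Measure.restrict_univ,
      ← ofReal_integral_eq_lintegral_ofReal (hρ t) ((hb t ht).mono fun x hx => hc.le.trans hx.1),
      integral_div, integral_add (integrable_const M) (hi.const_mul t), integral_const_mul, h0,
      integral_const, smul_eq_mul, mul_zero, add_zero, mul_comm, ← hZe, div_self hZ0.ne',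
      ENNReal.ofReal_one]⟩
  have hle : ∀ t ∈ Icc (0 : ℝ) 1, μ t ≤ ((M + H) / Z).toNNReal • m := fun t ht => by
    refine (withDensity_mono ((hb t ht).mono fun x hx => ENNReal.ofReal_le_ofReal hx.2)).trans ?_
    rw [withDensity_const]
    rfl
  obtain ⟨π, hπ, e0, e1, hC, hE⟩ := exists_plan m ((M + H) / Z).toNNReal μ
    (L := N / √(Z * (M - H))) hp hle fun s hs t ht hst => by
      have := hp s hs
      have := hp t ht
      have hD : Dual m (fun x => ρ t x - ρ s x) ((t - s) / Z * N) := by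
        have e : (fun x => ρ t x - ρ s x) = fun x => (t - s) / Z * h x := funext fun x => by
          simp only [ρ]
          ring
        rw [e]
        exact dual_smul hN (div_nonneg (sub_nonneg.2 hst) hZ0.le)
      obtain ⟨q, -, q1, q2, -, -, q3⟩ := coupling hc (hρ s) (hρ t) ((hb s hs).mono fun _ h => h.1)
        ((hb t ht).mono fun _ h => h.1) hD hR
      refine ⟨q, q1, q2, le_trans (le_of_eq ?_) (q3.trans (le_of_eq ?_))⟩
      · simp only [edist_dist, ENNReal.ofReal_pow dist_nonneg]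
      · congr 1
        rw [div_pow N, Real.sq_sqrt (mul_pos hZ0 hMH).le]
        field_simp
  have := hπ.prob
  have hfi : Integrable f m := hf.1.1.integrable one_le_two
  have hint : ∀ (t : I) (r : ℝ), r ∈ Icc (0 : ℝ) 1 → π.map (fun γ => γ t) = μ r →
      Integrable (fun γ : C(I, X) => f (γ t)) π ∧ ∫ γ, f (γ t) ∂π = ∫ x, f x * ρ r x ∂m :=
    fun t r hr e => by
      have h1 : Integrable f (π.map fun γ => γ t) :=
        (hfi.smul_measure_nnreal (c := ((M + H) / Z).toNNReal)).mono_measure (hC t)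
      have h2 := (continuous_eval_const (F := C(I, X)) t).measurable
      refine ⟨(integrable_map_measure h1.1 h2.aemeasurable).1 h1, ?_⟩
      rw [← integral_map h2.aemeasurable h1.1, e, integral_withDensity_eq_integral_toReal_smul₀
        (hρ r).1.aemeasurable.ennreal_ofReal (Eventually.of_forall fun _ => ENNReal.ofReal_lt_top)]
      refine integral_congr_ae ((hb r hr).mono fun x hx => ?_)
      simp only [smul_eq_mul]
      rw [ENNReal.toReal_ofReal (hc.le.trans hx.1), mul_comm]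
  obtain ⟨i0, j0⟩ := hint 0 0 ⟨le_rfl, zero_le_one⟩ e0
  obtain ⟨i1, j1⟩ := hint 1 1 ⟨zero_le_one, le_rfl⟩ e1
  have hfh : Integrable (fun x => f x * h x) m := hfi.mul_bdd (c := H) hm hH
  have h1 : ∫ γ, f (γ 1) - f (γ 0) ∂π = (∫ x, f x * h x ∂m) / Z := by
    have e : ∀ r : ℝ, ∫ x, f x * ρ r x ∂m = (M * ∫ x, f x ∂m + r * ∫ x, f x * h x ∂m) / Z :=
      fun r => by
        rw [← integral_const_mul, ← integral_const_mul,
          ← integral_add (hfi.const_mul M) (hfh.const_mul r), ← integral_div]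
        refine integral_congr_ae (Eventually.of_forall fun x => ?_)
        simp only [ρ]
        ring
    rw [integral_sub i1 i0, j0, j1, e, e]
    ring
  have hA : 0 ≤ ∫ x, G x ^ 2 ∂m := integral_nonneg fun x => sq_nonneg _
  have h2 := (enorm_integral_le_lintegral_enorm _).trans ((hf.2 π hπ).trans
    ((lineInt_le hC hf.1.2.1 (one_div_pos.2 hM0)).trans (add_le_add le_rfl
      (mul_le_mul_of_nonneg_left hE zero_le))))
  rw [h1, Real.enorm_eq_ofReal_abs] at h2
  change _ ≤ _ * (ENNReal.ofReal _ * _) + _ at h2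
  rw [← ENNReal.ofReal_mul (by positivity), ← ENNReal.ofReal_mul (by positivity),
    ← ENNReal.ofReal_mul (by positivity), ← ENNReal.ofReal_add (by positivity) (by positivity),
    ENNReal.ofReal_le_ofReal_iff (by positivity), div_pow N,
    Real.sq_sqrt (mul_pos hZ0 hMH).le] at h2
  have h3 := (div_le_iff₀ hZ0).1 ((le_abs_self _).trans h2)
  refine h3.trans (le_of_eq ?_)
  field_simp

/-- **The duality bound.** -/
theorem core : ∫ x, f x * h x ∂m ≤ (∫ x, G x ^ 2 ∂m + N ^ 2) / 2 := by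
  rcases eq_zero_or_neZero m with rfl | _
  · simp only [integral_zero_measure]
    positivity
  have hZ : 0 < m.real univ := measureReal_univ_pos
  have hH' : ∀ᵐ x ∂m, |h x| ≤ |H| := hH.mono fun x hx => hx.trans (le_abs_self _)
  have h1 : Tendsto (fun M : ℝ => |H| / M) atTop (𝓝 0) := tendsto_const_nhds.div_atTop tendsto_id
  have h2 : Tendsto (fun M : ℝ => (1 + |H| / M) * (∫ x, G x ^ 2 ∂m) / 2 +
      (1 - |H| / M)⁻¹ * N ^ 2 / 2) atTop
      (𝓝 ((1 + 0) * (∫ x, G x ^ 2 ∂m) / 2 + (1 - 0)⁻¹ * N ^ 2 / 2)) :=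
    (((h1.const_add 1).mul_const _).div_const 2).add
      ((((h1.const_sub 1).inv₀ (by norm_num)).mul_const _).div_const 2)
  refine (ge_of_tendsto h2 ?_).trans (le_of_eq (by ring))
  filter_upwards [eventually_gt_atTop |H|] with M hM
  have hM0 : 0 < M := (abs_nonneg H).trans_lt hM
  refine (core_aux hR hf hm hH' h0 hN hZ (abs_nonneg H) hM).trans (le_of_eq ?_)
  have h3 : M - |H| ≠ 0 := (sub_pos.2 hM).ne'
  field_simp

end Vale.Agent.P242W39
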