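import Mathlib.MeasureTheory.Measure.Prokhorov
import Mathlib.MeasureTheory.Measure.LevyProkhorovMetric
import Mathlib.MeasureTheory.Measure.Portmanteau
import Mathlib.Probability.Kernel.Disintegration.StandardBorel
import Mathlib.Probability.Kernel.Composition.MeasureCompProd

/-!
# P242W: lifting a curve of measures, the measure on dyadic paths
-/

open MeasureTheory Set Filter Topology ProbabilityTheory
open scoped ENNReal NNReal

set_option linter.unusedSectionVars false

noncomputable section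

namespace Vale.Agent.P242W39

variable {X : Type*} [MetricSpace X] [CompleteSpace X] [SecondCountableTopology X]
  [MeasurableSpace X] [BorelSpace X]

theorem glue {Ω : Type*} [MeasurableSpace Ω] [Nonempty X] (P : Measure Ω) [IsProbabilityMeasure P]
    {φ : Ω → X} (hφ : Measurable φ) (q : Measure (X × X)) [IsProbabilityMeasure q]
    (h : P.map φ = q.map Prod.fst) : ∃ γ : Measure (Ω × X), IsProbabilityMeasure γ ∧
      γ.map Prod.fst = P ∧ γ.map (fun z => (φ z.1, z.2)) = q := by
  have : PolishSpace X := inferInstance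
  refine ⟨P ⊗ₘ (q.condKernel.comap φ hφ), inferInstance, Measure.fst_compProd P _, ?_⟩
  have hm : Measurable fun z : Ω × X => (φ z.1, z.2) :=
    (hφ.comp measurable_fst).prodMk measurable_snd
  have hq : q.fst ⊗ₘ q.condKernel = q := Measure.disintegrate q _
  conv_rhs => rw [← hq]
  ext s hs
  rw [Measure.map_apply hm hs, Measure.compProd_apply (hm hs), Measure.compProd_apply hs]
  have hfst : q.fst = P.map φ := h.symm
  rw [hfst, lintegral_map (Kernel.measurable_kernel_prodMk_left hs) hφ]
  rfl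

/-- a chain of couplings -/
theorem chain [Nonempty X] (q : ℕ → Measure (X × X)) [∀ j, IsProbabilityMeasure (q j)]
    (h : ∀ j, (q j).map Prod.snd = (q (j + 1)).map Prod.fst) (N : ℕ) :
    ∃ P : Measure (ℕ → X), IsProbabilityMeasure P ∧
      ∀ j ≤ N, P.map (fun x => (x j, x (j + 1))) = q j := by
  induction N with
  | zero =>
    have hm : Measurable fun z : X × X => fun j : ℕ => if j = 0 then z.1 else z.2 :=
      measurable_pi_lambda _ fun j => by split_ifs <;> fun_prop
    refine ⟨(q 0).map fun z j => if j = 0 then z.1 else z.2,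
      Measure.isProbabilityMeasure_map hm.aemeasurable, fun j hj => ?_⟩
    obtain rfl : j = 0 := by omega
    rw [Measure.map_map (by fun_prop) hm]
    exact Measure.map_id
  | succ N ih =>
    obtain ⟨P, hP, hq⟩ := ih
    obtain ⟨γ, hγ, h1, h2⟩ := glue P (φ := fun x => x (N + 1)) (by fun_prop) (q (N + 1)) (by
      rw [← h, ← hq N le_rfl, Measure.map_map measurable_snd (by fun_prop)]
      rfl)
    have hm : Measurable fun z : (ℕ → X) × X => Function.update z.1 (N + 2) z.2 :=
      measurable_update'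
    refine ⟨γ.map fun z => Function.update z.1 (N + 2) z.2,
      Measure.isProbabilityMeasure_map hm.aemeasurable, fun j hj => ?_⟩
    rw [Measure.map_map (by fun_prop) hm]
    rcases hj.lt_or_eq with hj | rfl
    · rw [← hq j (by omega), ← h1, Measure.map_map (by fun_prop) measurable_fst]
      congr 1
      funext z
      simp only [Function.comp_apply]
      rw [Function.update_of_ne (by omega), Function.update_of_ne (by omega)]
    · rw [← h2]
      congr 1
      funext z
      simp only [Function.comp_apply]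
      rw [Function.update_of_ne (by omega), Function.update_self]

/-- the dyadic times -/
def tm (k j : ℕ) : ℝ := min ((j : ℝ) / 2 ^ k) 1

theorem tm_mem (k j : ℕ) : tm k j ∈ Icc (0 : ℝ) 1 :=
  ⟨le_min (by positivity) zero_le_one, min_le_right _ _⟩

theorem tm_sub (k j : ℕ) : (tm k (j + 1) - tm k j) ^ 2 ≤ (1 / 2 ^ k) ^ 2 := by
  have h : ((j + 1 : ℕ) : ℝ) / 2 ^ k = (j : ℝ) / 2 ^ k + 1 / 2 ^ k := by
    push_cast
    ring
  have h0 : (0 : ℝ) < 1 / 2 ^ k := by positivity
  refine sq_le_sq' ?_ ?_ <;> unfold tm <;> rw [h] <;> simp only [min_def] <;> split_ifs <;> linarith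

/-- the energy at level `k` -/
def En (k : ℕ) (x : ℕ → X) : ℝ := ∑ j ∈ Finset.range (2 ^ k), 2 ^ k * dist (x j) (x (j + 1)) ^ 2

theorem En_nonneg (k : ℕ) (x : ℕ → X) : 0 ≤ En k x :=
  Finset.sum_nonneg fun _ _ => by positivity

theorem continuous_En (k : ℕ) : Continuous (En (X := X) k) := by
  unfold En
  fun_prop

/-- consistent families of points -/
def Con (w : ℕ → ℕ → X) : Prop := ∀ k j, w (k + 1) (2 * j) = w k j

theorem isClosed_con : IsClosed {w : ℕ → ℕ → X | Con w} := by
  simp only [Con, ofPred_forall]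
  exact isClosed_iInter fun k => isClosed_iInter fun j => isClosed_eq (by fun_prop) (by fun_prop)

theorem sum_two (f : ℕ → ℝ) (N : ℕ) :
    ∑ i ∈ Finset.range (2 * N), f i = ∑ j ∈ Finset.range N, (f (2 * j) + f (2 * j + 1)) := by
  induction N with
  | zero => simp
  | succ N ih =>
    rw [Nat.mul_succ, Finset.sum_range_succ, Finset.sum_range_succ, ih, Finset.sum_range_succ,
      add_assoc]

theorem Con.mono {w : ℕ → ℕ → X} (h : Con w) : Monotone fun k => En k (w k) := by
  refine monotone_nat_of_le_succ fun k => ?_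
  unfold En
  rw [pow_succ' 2 k, sum_two]
  refine Finset.sum_le_sum fun j _ => ?_
  rw [← h k j, ← h k (j + 1), show 2 * (j + 1) = 2 * j + 1 + 1 by ring]
  have h1 := dist_triangle (w (k + 1) (2 * j)) (w (k + 1) (2 * j + 1)) (w (k + 1) (2 * j + 1 + 1))
  have h2 := dist_nonneg (x := w (k + 1) (2 * j)) (y := w (k + 1) (2 * j + 1 + 1))
  have h3 : (0 : ℝ) < 2 ^ k := by positivity
  generalize dist (w (k + 1) (2 * j)) (w (k + 1) (2 * j + 1 + 1)) = c at *
  generalize dist (w (k + 1) (2 * j)) (w (k + 1) (2 * j + 1)) = a at *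
  generalize dist (w (k + 1) (2 * j + 1)) (w (k + 1) (2 * j + 1 + 1)) = b at *
  have h4 : c ^ 2 ≤ 2 * a ^ 2 + 2 * b ^ 2 := by
    nlinarith [sq_nonneg (a - b), mul_self_le_mul_self h2 h1]
  rw [pow_succ (2 : ℝ) k]
  nlinarith [mul_le_mul_of_nonneg_left h4 h3.le]

variable (m : Measure X) [IsFiniteMeasure m] (μ : ℝ → Measure X) {L : ℝ}
  (hp : ∀ t ∈ Icc (0 : ℝ) 1, IsProbabilityMeasure (μ t)) (hm : ∀ t ∈ Icc (0 : ℝ) 1, μ t ≤ m)
  (hW : ∀ s ∈ Icc (0 : ℝ) 1, ∀ t ∈ Icc (0 : ℝ) 1, s ≤ t → ∃ q : Measure (X × X),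
    q.map Prod.fst = μ s ∧ q.map Prod.snd = μ t ∧
      ∫⁻ z, ENNReal.ofReal (dist z.1 z.2 ^ 2) ∂q ≤ ENNReal.ofReal (L ^ 2 * (t - s) ^ 2))

include hp hW in
theorem level [Nonempty X] (n : ℕ) : ∃ P : Measure (ℕ → ℕ → X), IsProbabilityMeasure P ∧
    P {w | Con w}ᶜ = 0 ∧ (∀ k j, j ≤ 2 ^ k → ∃ t ∈ Icc (0 : ℝ) 1, P.map (fun w => w k j) = μ t ∧
      (k ≤ n → t = tm k j)) ∧ (∀ᵐ w ∂P, ∀ k j, 2 ^ k ≤ j → w k j = w k (2 ^ k)) ∧
    ∫⁻ w, ENNReal.ofReal (En n (w n)) ∂P ≤ ENNReal.ofReal (L ^ 2) := by
  choose q h1 h2 h3 using fun j => hW _ (tm_mem n j) _ (tm_mem n (j + 1))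
    (min_le_min_right _ (by gcongr; omega))
  have hq : ∀ j, IsProbabilityMeasure (q j) := fun j => by
    have := hp _ (tm_mem n j)
    exact ⟨by rw [← preimage_univ (f := Prod.fst), ← Measure.map_apply measurable_fst .univ, h1,
      measure_univ]⟩
  obtain ⟨P, hP, hPq⟩ := chain q (fun j => (h2 j).trans (h1 (j + 1)).symm) (2 ^ n)
  let F : (ℕ → X) → ℕ → ℕ → X := fun x k j => x (min j (2 ^ k) * 2 ^ n / 2 ^ k)
  have hF : Measurable F := by fun_prop
  have hx : ∀ i ≤ 2 ^ n, P.map (fun x => x i) = μ (tm n i) := fun i hi => by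
    rw [← h1, ← hPq i hi, Measure.map_map measurable_fst (by fun_prop)]
    rfl
  refine ⟨P.map F, Measure.isProbabilityMeasure_map hF.aemeasurable, ?_, fun k j hj => ?_, ?_, ?_⟩
  · rw [Measure.map_apply hF isClosed_con.measurableSet.compl]
    have : F ⁻¹' {w | Con w}ᶜ = ∅ := by
      refine eq_empty_of_forall_notMem fun x hx => hx fun k j => ?_
      simp only [F]
      rw [pow_succ' 2 k, ← mul_min_of_nonneg _ _ (Nat.zero_le 2), mul_assoc,
        Nat.mul_div_mul_left _ _ two_pos]
    rw [this, measure_empty]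
  · refine ⟨_, tm_mem n (j * 2 ^ n / 2 ^ k), ?_, fun hk => ?_⟩
    · rw [Measure.map_map (by fun_prop) hF, ← hx _ (Nat.div_le_of_le_mul (by gcongr))]
      simp only [F, Function.comp_def, min_eq_left hj]
    · obtain ⟨l, rfl⟩ := Nat.exists_eq_add_of_le hk
      unfold tm
      rw [pow_add, mul_left_comm, Nat.mul_div_cancel_left _ (by positivity)]
      congr 1
      push_cast
      rw [pow_add]
      field_simp
  · refine (ae_map_iff hF.aemeasurable ?_).2 (Eventually.of_forall fun x k j hj => ?_)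
    · simp only [ofPred_forall]
      exact .iInter fun k => .iInter fun j => .iInter fun _ =>
        (isClosed_eq (by fun_prop) (by fun_prop)).measurableSet
    · simp only [F, min_eq_right hj, min_self]
  · have hE : Measurable fun w : ℕ → ℕ → X => ENNReal.ofReal (En n (w n)) :=
      ((continuous_En n).comp (continuous_apply n)).measurable.ennreal_ofReal
    rw [lintegral_map hE hF]
    have e : ∀ x : ℕ → X, ENNReal.ofReal (En n (F x n)) = ∑ j ∈ Finset.range (2 ^ n),
        ENNReal.ofReal (2 ^ n) * ENNReal.ofReal (dist (x j) (x (j + 1)) ^ 2) := fun x => by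
      unfold En
      rw [ENNReal.ofReal_sum_of_nonneg fun _ _ => by positivity]
      refine Finset.sum_congr rfl fun j hj => ?_
      have hj' := Finset.mem_range.1 hj
      simp only [F]
      rw [min_eq_left hj'.le, min_eq_left (Nat.succ_le_of_lt hj'),
        Nat.mul_div_cancel _ (by positivity), Nat.mul_div_cancel _ (by positivity),
        ENNReal.ofReal_mul (by positivity)]
    simp only [e]
    rw [lintegral_finsetSum _ fun j _ => by fun_prop]
    have e2 : ENNReal.ofReal (L ^ 2) = ∑ j ∈ Finset.range (2 ^ n),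
        ENNReal.ofReal (2 ^ n) * ENNReal.ofReal (L ^ 2 * (1 / 2 ^ n) ^ 2) := by
      rw [Finset.sum_const, Finset.card_range, nsmul_eq_mul, ← ENNReal.ofReal_natCast,
        ← ENNReal.ofReal_mul (by positivity), ← ENNReal.ofReal_mul (by positivity)]
      congr 1
      push_cast
      field_simp
    rw [e2]
    refine Finset.sum_le_sum fun j hj => ?_
    rw [lintegral_const_mul _ (by fun_prop)]
    gcongr
    have h4 := h3 j
    rw [← hPq j (Finset.mem_range.1 hj).le, lintegral_map (by fun_prop) (by fun_prop)] at h4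
    exact h4.trans (ENNReal.ofReal_le_ofReal (mul_le_mul_of_nonneg_left (tm_sub n j) (sq_nonneg L)))

include hp hm hW in
/-- **The measure on dyadic paths.** -/
theorem exists_dyadic : ∃ P : Measure (ℕ → ℕ → X), IsProbabilityMeasure P ∧ (∀ᵐ w ∂P, Con w) ∧
    (∀ k j, j ≤ 2 ^ k → P.map (fun w => w k j) = μ (tm k j)) ∧
    ∀ k, ∫⁻ w, ENNReal.ofReal (En k (w k)) ∂P ≤ ENNReal.ofReal (L ^ 2) := by
  have := hp 0 ⟨le_rfl, zero_le_one⟩
  have : Nonempty X := nonempty_of_isProbabilityMeasure (μ 0)
  choose P hP h1 h2 h3 h4 using level μ hp hW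
  let p : ℕ → ProbabilityMeasure (ℕ → ℕ → X) := fun n => ⟨P n, hP n⟩
  have ht : IsTightMeasureSet
      {((ν : ProbabilityMeasure (ℕ → ℕ → X)) : Measure (ℕ → ℕ → X)) | ν ∈ range p} := by
    refine isTightMeasureSet_iff_exists_isCompact_measure_compl_le.2 fun ε hε => ?_
    obtain ⟨δ, hδ, hs⟩ := ENNReal.exists_pos_sum_of_countable' hε.ne' (ℕ × ℕ)
    choose K hK hKm using fun i : ℕ × ℕ =>
      isTightMeasureSet_iff_exists_isCompact_measure_compl_le.1
        (isTightMeasureSet_singleton (μ := m)) (δ i) (hδ i)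
    refine ⟨univ.pi fun k => univ.pi fun j => K (k, min j (2 ^ k)),
      isCompact_univ_pi fun k => isCompact_univ_pi fun j => hK _, ?_⟩
    rintro _ ⟨_, ⟨n, rfl⟩, rfl⟩
    calc P n (univ.pi fun k => univ.pi fun j => K (k, min j (2 ^ k)))ᶜ
        ≤ P n (⋃ i : ℕ × ℕ, {w | i.2 ≤ 2 ^ i.1 ∧ w i.1 i.2 ∉ K i}) := by
          refine measure_mono_ae ?_
          filter_upwards [h3 n] with w hw hw'
          have hw2 : ¬ ∀ k j, w k j ∈ K (k, min j (2 ^ k)) := fun h => hw' fun k _ j _ => h k j
          push Not at hw2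
          obtain ⟨k, j, hkj⟩ := hw2
          refine mem_iUnion.2 ⟨(k, min j (2 ^ k)), min_le_right _ _, ?_⟩
          rcases le_total j (2 ^ k) with h | h
          · simpa only [min_eq_left h] using hkj
          · rw [hw k j h] at hkj
            simpa only [min_eq_right h] using hkj
      _ ≤ ∑' i : ℕ × ℕ, δ i := by
          refine (measure_iUnion_le _).trans (ENNReal.tsum_le_tsum fun i => ?_)
          by_cases hi : i.2 ≤ 2 ^ i.1
          · obtain ⟨t, ht, h5, -⟩ := h2 n i.1 i.2 hi
            refine le_trans ?_ ((hm t ht _).trans (hKm i m rfl))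
            rw [← h5, Measure.map_apply (by fun_prop) (hK i).measurableSet.compl]
            exact measure_mono fun w hw => hw.2
          · simp [hi]
      _ ≤ ε := hs.le
  obtain ⟨π, -, φ, hφ, hlim⟩ := (isCompact_closure_of_isTightMeasureSet ht).tendsto_subseq
    fun n => subset_closure (mem_range_self (f := p) n)
  have hop : ∀ G, IsOpen G → (π : Measure (ℕ → ℕ → X)) G ≤ atTop.liminf fun i => P (φ i) G :=
    fun G hG =>
    ProbabilityMeasure.le_liminf_measure_open_of_tendsto hlim hG
  refine ⟨π, inferInstance, ?_, fun k j hj => ?_, fun k => ?_⟩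
  · refine le_antisymm ((hop _ isClosed_con.isOpen_compl).trans ?_) zero_le
    simp only [h1, liminf_const, le_refl]
  · have hc : Continuous fun w : ℕ → ℕ → X => w k j := by fun_prop
    have h5 := ((ProbabilityMeasure.continuous_map hc).tendsto π).comp hlim
    let ν : ProbabilityMeasure X := ⟨μ (tm k j), hp _ (tm_mem k j)⟩
    have h6 : ∀ᶠ i in atTop, ν = (p (φ i)).map hc.measurable.aemeasurable := by
      filter_upwards [eventually_ge_atTop k] with i hi
      obtain ⟨t, -, h7, h8⟩ := h2 (φ i) k j hj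
      exact Subtype.ext ((h8 (hi.trans (hφ.id_le i))) ▸ h7).symm
    have h9 : π.map hc.measurable.aemeasurable = ν :=
      tendsto_nhds_unique h5 (tendsto_const_nhds.congr' h6)
    exact congrArg Subtype.val h9
  · refine (lintegral_le_liminf_lintegral_of_forall_isOpen_measure_le_liminf_measure
      ((continuous_En k).comp (continuous_apply k)) (fun w => En_nonneg k _) hop).trans ?_
    refine liminf_le_of_frequently_le' (Eventually.frequently ?_)
    filter_upwards [eventually_ge_atTop k] with i hi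
    refine le_trans (lintegral_mono_ae ?_) (h4 (φ i))
    filter_upwards [h1 (φ i)] with w hw
    exact ENNReal.ofReal_le_ofReal (Con.mono hw (hi.trans (hφ.id_le i)))

end Vale.Agent.P242W39
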