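import Vale.Agent.P242W39.Lis1
import Mathlib.Topology.UnitInterval
import Mathlib.Topology.ContinuousMap.Compact
import Mathlib.Topology.ContinuousMap.SecondCountableSpace
import Mathlib.Algebra.Order.Chebyshev

/-!
# P242W: lifting a curve of measures, the measure on continuous paths
-/

open MeasureTheory Set Filter Topology unitInterval
open scoped ENNReal NNReal

set_option linter.unusedSectionVars false

noncomputable section

namespace Vale.Agent.P242W39

variable {X : Type*} [MetricSpace X] [CompleteSpace X] [SecondCountableTopology X]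
  [MeasurableSpace X] [BorelSpace X]

theorem Con.up {w : ℕ → ℕ → X} (h : Con w) (k j l : ℕ) : w (k + l) (j * 2 ^ l) = w k j := by
  induction l with
  | zero => simp
  | succ l ih => rw [← ih, ← h (k + l), pow_succ, ← mul_assoc, mul_comm _ 2, add_assoc]

theorem dist_sq_le (k : ℕ) (x : ℕ → X) {a b : ℕ} (hab : a ≤ b) (hb : b ≤ 2 ^ k) :
    dist (x a) (x b) ^ 2 ≤ En k x * ((b : ℝ) / 2 ^ k - a / 2 ^ k) := by
  have h1 := dist_le_Ico_sum_dist x hab
  have h2 := sq_sum_le_card_mul_sum_sq (s := Finset.Ico a b) (f := fun j => dist (x j) (x (j + 1)))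
  have h3 : ∑ j ∈ Finset.Ico a b, dist (x j) (x (j + 1)) ^ 2 ≤
      ∑ j ∈ Finset.range (2 ^ k), dist (x j) (x (j + 1)) ^ 2 :=
    Finset.sum_le_sum_of_subset_of_nonneg (fun j hj => Finset.mem_range.2
      ((Finset.mem_Ico.1 hj).2.trans_le hb)) fun _ _ _ => sq_nonneg _
  rw [Nat.card_Ico, Nat.cast_sub hab] at h2
  have h4 : (0 : ℝ) ≤ b - a := sub_nonneg.2 (Nat.cast_le.2 hab)
  have h5 : En k x * ((b : ℝ) / 2 ^ k - a / 2 ^ k) =
      (b - a) * ∑ j ∈ Finset.range (2 ^ k), dist (x j) (x (j + 1)) ^ 2 := by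
    unfold En
    rw [← Finset.mul_sum]
    field_simp
  rw [h5]
  exact (pow_le_pow_left₀ dist_nonneg h1 2).trans (h2.trans (mul_le_mul_of_nonneg_left h3 h4))

theorem Con.hol {w : ℕ → ℕ → X} (h : Con w) {S : ℝ} (hS : ∀ k, En k (w k) ≤ S) {k j k' j' : ℕ}
    (hj : j ≤ 2 ^ k) (hj' : j' ≤ 2 ^ k') :
    dist (w k j) (w k' j') ^ 2 ≤ S * |(j : ℝ) / 2 ^ k - j' / 2 ^ k'| := by
  have e1 : (j : ℝ) / 2 ^ k = ((j * 2 ^ k' : ℕ) : ℝ) / 2 ^ (k + k') := by
    push_cast
    rw [pow_add]
    field_simp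
  have e2 : (j' : ℝ) / 2 ^ k' = ((j' * 2 ^ k : ℕ) : ℝ) / 2 ^ (k + k') := by
    push_cast
    rw [pow_add]
    field_simp
  have b1 : j * 2 ^ k' ≤ 2 ^ (k + k') := by
    rw [pow_add]
    gcongr
  have b2 : j' * 2 ^ k ≤ 2 ^ (k + k') := by
    rw [pow_add, mul_comm (2 ^ k)]
    gcongr
  have h0 := En_nonneg (k + k') (w (k + k'))
  rw [← h.up k j k', ← h.up k' j' k, add_comm k' k, e1, e2]
  rcases le_total (j * 2 ^ k') (j' * 2 ^ k) with hle | hle
  · refine (dist_sq_le _ _ hle b2).trans ?_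
    rw [abs_sub_comm]
    exact (mul_le_mul_of_nonneg_left (le_abs_self _) h0).trans
      (mul_le_mul_of_nonneg_right (hS _) (abs_nonneg _))
  · rw [dist_comm]
    refine (dist_sq_le _ _ hle b1).trans ?_
    exact (mul_le_mul_of_nonneg_left (le_abs_self _) h0).trans
      (mul_le_mul_of_nonneg_right (hS _) (abs_nonneg _))

/-- the dyadic approximation from below -/
def fl (k : ℕ) (t : I) : ℕ := ⌊(t : ℝ) * 2 ^ k⌋₊

theorem fl_le (k : ℕ) (t : I) : fl k t ≤ 2 ^ k := by
  refine Nat.floor_le_of_le ?_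
  push_cast
  exact mul_le_of_le_one_left (by positivity) t.2.2

theorem fl_tendsto (t : I) : Tendsto (fun k => (fl k t : ℝ) / 2 ^ k) atTop (𝓝 t) :=
  (tendsto_nat_floor_mul_div_atTop t.2.1).comp (tendsto_pow_atTop_atTop_of_one_lt one_lt_two)

/-- good families -/
def Good (w : ℕ → ℕ → X) : Prop := Con w ∧ ∃ S : ℕ, ∀ k, En k (w k) ≤ S

theorem measurableSet_good : MeasurableSet {w : ℕ → ℕ → X | Good w} := by
  refine isClosed_con.measurableSet.inter ?_
  change MeasurableSet {w : ℕ → ℕ → X | ∃ S : ℕ, ∀ k, En k (w k) ≤ S}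
  simp only [ofPred_exists, ofPred_forall]
  exact .iUnion fun S => .iInter fun k => (isClosed_le
    ((continuous_En k).comp (continuous_apply k)) continuous_const).measurableSet

theorem Good.exists_path {w : ℕ → ℕ → X} (h : Good w) :
    ∃ γ : C(I, X), ∀ t, Tendsto (fun k => w k (fl k t)) atTop (𝓝 (γ t)) := by
  obtain ⟨hc, S, hS⟩ := h
  have hd : ∀ k k' (s t : I), dist (w k (fl k s)) (w k' (fl k' t)) ≤
      √(S * |(fl k s : ℝ) / 2 ^ k - fl k' t / 2 ^ k'|) := fun k k' s t =>
    Real.le_sqrt_of_sq_le (hc.hol hS (fl_le k s) (fl_le k' t))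
  have hex : ∀ t : I, ∃ x, Tendsto (fun k => w k (fl k t)) atTop (𝓝 x) := fun t => by
    refine cauchySeq_tendsto_of_complete (cauchySeq_iff_tendsto_dist_atTop_0.2
      (squeeze_zero (fun _ => dist_nonneg) (fun n : ℕ × ℕ => hd n.1 n.2 t t) ?_))
    have h1 : Tendsto (fun n : ℕ × ℕ => (fl n.1 t : ℝ) / 2 ^ n.1 - fl n.2 t / 2 ^ n.2) atTop
        (𝓝 (t - t)) := by
      rw [← prod_atTop_atTop_eq]
      exact ((fl_tendsto t).comp tendsto_fst).sub ((fl_tendsto t).comp tendsto_snd)
    simpa using (h1.abs.const_mul (S : ℝ)).sqrt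
  choose γ hγ using hex
  refine ⟨⟨γ, continuous_iff_continuousAt.2 fun t => tendsto_iff_dist_tendsto_zero.2
    (squeeze_zero (fun _ => dist_nonneg) (g := fun s : I => √(S * |(s : ℝ) - t|)) (fun s => ?_)
      ?_)⟩, hγ⟩
  · exact le_of_tendsto_of_tendsto' ((hγ s).dist (hγ t))
      ((((fl_tendsto s).sub (fl_tendsto t)).abs.const_mul (S : ℝ)).sqrt) fun k => hd k k s t
  · have h1 : Continuous fun s : I => √(S * |(s : ℝ) - t|) := by fun_prop
    simpa using h1.tendsto t

open Classical in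
/-- the path of a family -/
def pth (w : ℕ → ℕ → X) : C(I, X) :=
  if h : Good w then h.exists_path.choose else ContinuousMap.const I (w 0 0)

theorem Good.tendsto {w : ℕ → ℕ → X} (h : Good w) (t : I) :
    Tendsto (fun k => w k (fl k t)) atTop (𝓝 (pth w t)) := by
  rw [pth, dif_pos h]
  exact h.exists_path.choose_spec t

/-- dyadic points of the unit interval -/
def dy (k j : ℕ) : I := ⟨tm k j, tm_mem k j⟩

theorem Good.dy {w : ℕ → ℕ → X} (h : Good w) {k j : ℕ} (hj : j ≤ 2 ^ k) :
    pth w (dy k j) = w k j := by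
  refine tendsto_nhds_unique (h.tendsto _) (tendsto_const_nhds.congr' ?_)
  filter_upwards [eventually_ge_atTop k] with n hn
  obtain ⟨l, rfl⟩ := Nat.exists_eq_add_of_le hn
  have h1 : (j : ℝ) / 2 ^ k ≤ 1 := (div_le_one (by positivity)).2 (by exact_mod_cast hj)
  have h2 : ((P242W39.dy k j : I) : ℝ) * 2 ^ (k + l) = ((j * 2 ^ l : ℕ) : ℝ) := by
    change min ((j : ℝ) / 2 ^ k) 1 * _ = _
    rw [min_eq_left h1, pow_add]
    push_cast
    field_simp
  rw [fl, h2, Nat.floor_natCast, h.1.up]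

theorem measurable_pth_apply (t : I) : Measurable fun w : ℕ → ℕ → X => pth w t := by
  classical
  refine measurable_of_tendsto_metrizable
    (f := fun k w => if Good w then w k (fl k t) else w 0 0)
    (fun k => Measurable.ite measurableSet_good (by fun_prop) (by fun_prop))
    (tendsto_pi_nhds.2 fun w => ?_)
  by_cases h : Good w
  · simpa only [if_pos h] using h.tendsto t
  · simp only [if_neg h, pth, dif_neg h]
    exact tendsto_const_nhds

/-- measurability of maps to the space of paths -/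
theorem measurable_path {Ω : Type*} [MeasurableSpace Ω] [MeasurableSpace C(I, X)]
    [BorelSpace C(I, X)] {F : Ω → C(I, X)} (h : ∀ t, Measurable fun w => F w t) :
    Measurable F := by
  obtain ⟨D, hD, hd⟩ := TopologicalSpace.exists_countable_dense I
  have h1 : ∀ g : C(I, X), Measurable fun w => edist (F w) g := fun g => by
    have e : ∀ f : C(I, X), edist f g = ⨆ t ∈ D, edist (f t) (g t) := fun f => by
      refine le_antisymm ?_ (iSup₂_le fun t _ => ?_)
      · by_cases hS : ⨆ t ∈ D, edist (f t) (g t) = ∞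
        · rw [hS]
          exact le_top
        · rw [edist_dist, ← ENNReal.ofReal_toReal hS]
          refine ENNReal.ofReal_le_ofReal ((ContinuousMap.dist_le ENNReal.toReal_nonneg).2 ?_)
          refine fun t => hd.induction (fun s hs => ?_) (isClosed_le (by fun_prop) (by fun_prop)) t
          rw [dist_edist]
          exact ENNReal.toReal_mono hS (le_iSup₂ (f := fun t (_ : t ∈ D) => edist (f t) (g t)) s hs)
      · rw [edist_dist, edist_dist]
        exact ENNReal.ofReal_le_ofReal (ContinuousMap.dist_apply_le_dist t)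
    simp only [e]
    exact Measurable.biSup D hD fun t _ => (h t).edist measurable_const
  refine measurable_of_isClosed fun s hs => ?_
  obtain ⟨c, hc, hcs, hsc⟩ :=
    (TopologicalSpace.IsSeparable.of_separableSpace s).exists_countable_dense_subset
  have e : F ⁻¹' s = {w | ⨅ g ∈ c, edist (F w) g = 0} := by
    ext w
    change F w ∈ s ↔ Metric.infEDist (F w) c = 0
    rw [← Metric.mem_closure_iff_infEDist_zero]
    exact ⟨fun h => hsc h, fun h => hs.closure_subset_iff.2 hc h⟩
  rw [e]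
  exact (Measurable.biInf c hcs fun g _ => h1 g) (measurableSet_singleton 0)

/-- the dyadic energy of a path -/
def Ed (γ : C(I, X)) : ℝ≥0∞ := ⨆ k, ENNReal.ofReal (En k fun j => γ (dy k j))

theorem measurable_Ed [MeasurableSpace C(I, X)] [BorelSpace C(I, X)] :
    Measurable (Ed (X := X)) :=
  Measurable.iSup fun k => ((continuous_En k).comp
    (continuous_pi fun j => continuous_eval_const (dy k j))).measurable.ennreal_ofReal

/-- **Lisini's theorem** for curves that are Lipschitz for the Wasserstein distance. -/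
theorem lisini [MeasurableSpace C(I, X)] [BorelSpace C(I, X)] (m : Measure X) [IsFiniteMeasure m]
    (μ : ℝ → Measure X) {L : ℝ} (hp : ∀ t ∈ Icc (0 : ℝ) 1, IsProbabilityMeasure (μ t))
    (hm : ∀ t ∈ Icc (0 : ℝ) 1, μ t ≤ m)
    (hW : ∀ s ∈ Icc (0 : ℝ) 1, ∀ t ∈ Icc (0 : ℝ) 1, s ≤ t → ∃ q : Measure (X × X),
      q.map Prod.fst = μ s ∧ q.map Prod.snd = μ t ∧
        ∫⁻ z, ENNReal.ofReal (dist z.1 z.2 ^ 2) ∂q ≤ ENNReal.ofReal (L ^ 2 * (t - s) ^ 2)) :
    ∃ π : Measure C(I, X), IsProbabilityMeasure π ∧ π.map (fun γ => γ 0) = μ 0 ∧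
      π.map (fun γ => γ 1) = μ 1 ∧ (∀ t : I, π.map (fun γ => γ t) ≤ m) ∧
      ∫⁻ γ, Ed γ ∂π ≤ ENNReal.ofReal (L ^ 2) := by
  obtain ⟨P, hP, h1, h2, h3⟩ := exists_dyadic m μ hp hm hW
  have hE : ∀ k, Measurable fun w : ℕ → ℕ → X => ENNReal.ofReal (En k (w k)) := fun k =>
    ((continuous_En k).comp (continuous_apply k)).measurable.ennreal_ofReal
  have h4 : ∫⁻ w, ⨆ k, ENNReal.ofReal (En k (w k)) ∂P ≤ ENNReal.ofReal (L ^ 2) := by
    rw [lintegral_iSup' (fun k => (hE k).aemeasurable)
      (h1.mono fun w hw a b hab => ENNReal.ofReal_le_ofReal (hw.mono hab))]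
    exact iSup_le h3
  have hg : ∀ᵐ w ∂P, Good w := by
    filter_upwards [h1, ae_lt_top (Measurable.iSup hE) (h4.trans_lt ENNReal.ofReal_lt_top).ne]
      with w hw hw'
    obtain ⟨S, hS⟩ := exists_nat_ge (⨆ k, ENNReal.ofReal (En k (w k))).toReal
    refine ⟨hw, S, fun k => le_trans ?_ hS⟩
    exact (ENNReal.ofReal_le_iff_le_toReal hw'.ne).1
      (le_iSup (fun k => ENNReal.ofReal (En k (w k))) k)
  have hF : Measurable (pth (X := X)) := measurable_path measurable_pth_apply
  have hev : ∀ t : I, Measurable fun γ : C(I, X) => γ t := fun t =>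
    (continuous_eval_const t).measurable
  have h5 : ∀ k j, j ≤ 2 ^ k → (P.map pth).map (fun γ => γ (dy k j)) = μ (tm k j) :=
    fun k j hj => by
      rw [Measure.map_map (hev _) hF, ← h2 k j hj]
      exact Measure.map_congr (hg.mono fun w hw => hw.dy hj)
  refine ⟨P.map pth, Measure.isProbabilityMeasure_map hF.aemeasurable, ?_, ?_, fun t => ?_, ?_⟩
  · have e : tm 0 0 = 0 := by simp [tm]
    have h6 := h5 0 0 (by simp)
    rwa [show dy 0 0 = 0 from Subtype.ext e, e] at h6
  · have e : tm 0 1 = 1 := by simp [tm]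
    have h6 := h5 0 1 (by simp)
    rwa [show dy 0 1 = 1 from Subtype.ext e, e] at h6
  · refine Measure.le_iff.2 fun s hs => ?_
    rw [s.measure_eq_iInf_isOpen m]
    refine le_iInf fun U => le_iInf fun hU => le_iInf fun hUo => (measure_mono hU).trans ?_
    rw [Measure.map_map (hev t) hF, Measure.map_apply ((hev t).comp hF) hUo.measurableSet]
    calc P (((fun γ : C(I, X) => γ t) ∘ pth) ⁻¹' U)
        ≤ P (⋃ N, {w | ∀ k, N ≤ k → w k (fl k t) ∈ U}) := by
          refine measure_mono_ae (hg.mono fun w hw hw' => mem_iUnion.2 ?_)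
          exact eventually_atTop.1 ((hw.tendsto t).eventually (hUo.mem_nhds hw'))
      _ ≤ m U := by
          rw [Monotone.measure_iUnion (s := fun N => {w : ℕ → ℕ → X | ∀ k, N ≤ k →
            w k (fl k t) ∈ U}) fun a b hab w hw k hk => hw k (hab.trans hk)]
          refine iSup_le fun N => le_trans ?_ (hm _ (tm_mem N (fl N t)) U)
          rw [← h2 N _ (fl_le N t), Measure.map_apply (by fun_prop) hUo.measurableSet]
          exact measure_mono fun w hw => hw N le_rfl
  · rw [lintegral_map measurable_Ed hF]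
    refine le_trans (lintegral_mono_ae (hg.mono fun w hw => iSup_mono fun k => le_of_eq ?_)) h4
    congr 1
    refine Finset.sum_congr rfl fun j hj => ?_
    have hj' := Finset.mem_range.1 hj
    beta_reduce
    rw [hw.dy hj'.le, hw.dy (Nat.succ_le_of_lt hj')]

end Vale.Agent.P242W39
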