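import Vale.Agent.P242W39.Lis2
import Mathlib.MeasureTheory.Function.L2Space
import Mathlib.Analysis.InnerProductSpace.Dual
import Mathlib.MeasureTheory.Integral.IntervalIntegral.Basic

/-!
# P242W: paths of finite dyadic energy are absolutely continuous
-/

open MeasureTheory Set Filter Topology unitInterval
open scoped ENNReal NNReal

set_option linter.unusedSectionVars false

noncomputable section

namespace Vale.Agent.P242W39

/-- weak limits in Hilbert spaces along an ultrafilter -/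
theorem exists_wlim {E : Type*} [NormedAddCommGroup E] [InnerProductSpace ℝ E] [CompleteSpace E]
    (U : Ultrafilter ℕ) (g : ℕ → E) {C : ℝ} (hC : 0 ≤ C) (h : ∀ k, ‖g k‖ ≤ C) :
    ∃ v : E, ‖v‖ ≤ C ∧ ∀ φ, Tendsto (fun k => inner ℝ (g k) φ) U (𝓝 (inner ℝ v φ)) := by
  have hb : ∀ φ k, inner ℝ (g k) φ ∈ Icc (-(C * ‖φ‖)) (C * ‖φ‖) := fun φ k =>
    abs_le.1 ((abs_real_inner_le_norm _ _).trans (by gcongr; exact h k))
  have hex : ∀ φ, ∃ x ∈ Icc (-(C * ‖φ‖)) (C * ‖φ‖), Tendsto (fun k => inner ℝ (g k) φ) U (𝓝 x) :=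
    fun φ => isCompact_Icc.ultrafilter_le_nhds (U.map fun k => inner ℝ (g k) φ)
      (le_principal_iff.2 (mem_map.2 (Eventually.of_forall (hb φ))))
  choose l hl1 hl2 using hex
  let Λ : E →ₗ[ℝ] ℝ :=
    { toFun := l
      map_add' := fun φ ψ => tendsto_nhds_unique (hl2 _) (by
        simpa only [inner_add_right] using (hl2 φ).add (hl2 ψ))
      map_smul' := fun c φ => tendsto_nhds_unique (hl2 _) (by
        simpa only [real_inner_smul_right, RingHom.id_apply, smul_eq_mul]
          using (hl2 φ).const_mul c) }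
  have hΛ : ∀ φ, ‖Λ φ‖ ≤ C * ‖φ‖ := fun φ => abs_le.2 (hl1 φ)
  refine ⟨(InnerProductSpace.toDual ℝ E).symm (Λ.mkContinuous C hΛ), ?_, fun φ => ?_⟩
  · rw [LinearIsometryEquiv.norm_map]
    exact Λ.mkContinuous_norm_le hC hΛ
  · rw [InnerProductSpace.toDual_symm_apply]
    exact hl2 φ

/-- step functions on the dyadic intervals -/
def st (k : ℕ) (a : ℕ → ℝ) (r : ℝ) : ℝ := ∑ j ∈ Finset.range (2 ^ k),
  (Ioc ((j : ℝ) / 2 ^ k) (((j + 1 : ℕ) : ℝ) / 2 ^ k)).indicator (fun _ => a j) r

theorem measurable_st (k : ℕ) (a : ℕ → ℝ) : Measurable (st k a) :=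
  Finset.measurable_fun_sum _ fun _ _ => measurable_const.indicator measurableSet_Ioc

theorem st_of_mem {k j : ℕ} (a : ℕ → ℝ) (hj : j < 2 ^ k) {r : ℝ}
    (hr : r ∈ Ioc ((j : ℝ) / 2 ^ k) (((j + 1 : ℕ) : ℝ) / 2 ^ k)) : st k a r = a j := by
  unfold st
  rw [Finset.sum_eq_single j, indicator_of_mem hr]
  · refine fun i _ hij => indicator_of_notMem (fun hi => hij ?_) _
    have h0 : (0 : ℝ) < 2 ^ k := by positivity
    have h1 := (div_lt_div_iff_of_pos_right h0).1 (hi.1.trans_le hr.2)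
    have h2 := (div_lt_div_iff_of_pos_right h0).1 (hr.1.trans_le hi.2)
    have h3 := Nat.cast_lt.1 h1
    have h4 := Nat.cast_lt.1 h2
    omega
  · exact fun h => absurd (Finset.mem_range.2 hj) h

theorem st_int (k : ℕ) (a : ℕ → ℝ) (F : ℝ → ℝ) {i j : ℕ} (hij : i ≤ j) (hj : j ≤ 2 ^ k) :
    IntervalIntegrable (fun r => F (st k a r)) volume ((i : ℝ) / 2 ^ k) ((j : ℝ) / 2 ^ k) ∧
    ∫ r in ((i : ℝ) / 2 ^ k)..((j : ℝ) / 2 ^ k), F (st k a r) =
      ∑ l ∈ Finset.Ico i j, F (a l) / 2 ^ k := by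
  induction j, hij using Nat.le_induction with
  | base => simp
  | succ j hij ih =>
    obtain ⟨h1, h2⟩ := ih (by omega)
    have hle : (j : ℝ) / 2 ^ k ≤ ((j + 1 : ℕ) : ℝ) / 2 ^ k := by
      gcongr
      omega
    have he : EqOn (fun r => F (st k a r)) (fun _ => F (a j))
        (Ioc ((j : ℝ) / 2 ^ k) (((j + 1 : ℕ) : ℝ) / 2 ^ k)) := fun r hr => by
      simp only [st_of_mem a (by omega : j < 2 ^ k) hr]
    have h3 : IntervalIntegrable (fun r => F (st k a r)) volume ((j : ℝ) / 2 ^ k)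
        (((j + 1 : ℕ) : ℝ) / 2 ^ k) := by
      rw [intervalIntegrable_iff_integrableOn_Ioc_of_le hle]
      exact (integrableOn_const (by simp)).congr_fun he.symm measurableSet_Ioc
    refine ⟨h1.trans h3, ?_⟩
    rw [← intervalIntegral.integral_add_adjacent_intervals h1 h3, h2, Finset.sum_Ico_succ_top hij,
      intervalIntegral.integral_of_le hle, setIntegral_congr_fun measurableSet_Ioc he,
      ← intervalIntegral.integral_of_le hle, intervalIntegral.integral_const, smul_eq_mul]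
    push_cast
    ring

variable {X : Type*} [MetricSpace X] [CompleteSpace X] [SecondCountableTopology X]
  [MeasurableSpace X] [BorelSpace X]

theorem tm_of_le {k j : ℕ} (hj : j ≤ 2 ^ k) : tm k j = (j : ℝ) / 2 ^ k :=
  min_eq_left ((div_le_one (by positivity)).2 (by exact_mod_cast hj))

theorem dy_up {k j : ℕ} (l : ℕ) : dy (k + l) (j * 2 ^ l) = dy k j := by
  refine Subtype.ext ?_
  change min _ _ = min _ _
  congr 1
  rw [pow_add]
  push_cast
  field_simp

theorem dy_tendsto (t : I) : Tendsto (fun k => dy k (fl k t)) atTop (𝓝 t) :=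
  tendsto_subtype_rng.2 ((fl_tendsto t).congr fun k => (tm_of_le (fl_le k t)).symm)

/-- **Paths of finite dyadic energy are absolutely continuous**, with a square integrable bound of
the speed. -/
theorem exists_bound (γ : C(I, X)) (h : Ed γ ≠ ∞) : ∃ v : ℝ → ℝ, Measurable v ∧ (∀ r, 0 ≤ v r) ∧
    MemLp v 2 (volume.restrict (Ioc (0 : ℝ) 1)) ∧
    ∫⁻ r in Ioc (0 : ℝ) 1, ENNReal.ofReal (v r ^ 2) ≤ Ed γ ∧
    ∀ s t : I, s ≤ t → dist (γ s) (γ t) ≤ ∫ r in (s : ℝ)..t, v r := by
  let ν : Measure ℝ := volume.restrict (Ioc (0 : ℝ) 1)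
  let a : ℕ → ℕ → ℝ := fun k j => 2 ^ k * dist (γ (dy k j)) (γ (dy k (j + 1)))
  have h1 : ∀ k, IntegrableOn (fun r => st k (a k) r ^ 2) (Ioc 0 1) ∧
      ∫ r in Ioc (0 : ℝ) 1, st k (a k) r ^ 2 ≤ (Ed γ).toReal := fun k => by
    obtain ⟨h2, h3⟩ := st_int k (a k) (· ^ 2) (Nat.zero_le _) (le_refl (2 ^ k))
    have e : ((2 ^ k : ℕ) : ℝ) / 2 ^ k = 1 := by
      push_cast
      field_simp
    rw [e, Nat.cast_zero, zero_div] at h2 h3
    refine ⟨h2.1, ?_⟩
    rw [← intervalIntegral.integral_of_le zero_le_one, h3]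
    refine le_trans (le_of_eq ?_) ((ENNReal.ofReal_le_iff_le_toReal h).1
      (le_iSup (fun k => ENNReal.ofReal (En k fun j => γ (dy k j))) k))
    rw [En, Finset.range_eq_Ico]
    refine Finset.sum_congr rfl fun j _ => ?_
    simp only [a]
    field_simp
  have h2 : ∀ k, MemLp (st k (a k)) 2 ν := fun k =>
    (memLp_two_iff_integrable_sq (measurable_st _ _).aestronglyMeasurable).2 (h1 k).1
  have hn : ∀ u : Lp ℝ 2 ν, ‖u‖ ^ 2 = ∫ r, u r ^ 2 ∂ν := fun u => by
    rw [← real_inner_self_eq_norm_sq, L2.inner_def]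
    simp only [real_inner_self_eq_norm_sq, Real.norm_eq_abs, sq_abs]
  obtain ⟨u, hu1, hu2⟩ := exists_wlim (hyperfilter ℕ) (fun k => (h2 k).toLp _)
    (Real.sqrt_nonneg (Ed γ).toReal) fun k => Real.le_sqrt_of_sq_le (by
      rw [hn]
      refine le_trans (le_of_eq (integral_congr_ae ?_)) (h1 k).2
      filter_upwards [(h2 k).coeFn_toLp] with r hr
      rw [hr])
  have hum : Measurable u := (Lp.stronglyMeasurable u).measurable
  have hv : MemLp (fun r => |u r|) 2 ν := (Lp.memLp u).abs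
  have hvi : IntegrableOn (fun r => |u r|) (Ioc 0 1) := hv.integrable one_le_two
  have hI : ∀ (s t : I) (f : Lp ℝ 2 ν), s ≤ t → inner ℝ f (indicatorConstLp 2
      (measurableSet_Ioc (a := (s : ℝ)) (b := t)) (measure_ne_top ν _) (1 : ℝ)) =
      ∫ r in Ioc (s : ℝ) t, f r := fun s t f _ => by
    rw [real_inner_comm, L2.inner_indicatorConstLp_one, Measure.restrict_restrict measurableSet_Ioc,
      inter_eq_left.2 (Ioc_subset_Ioc s.2.1 t.2.2)]
  have key : ∀ k i j, i ≤ j → j ≤ 2 ^ k →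
      dist (γ (dy k i)) (γ (dy k j)) ≤ ∫ r in (dy k i : ℝ)..(dy k j), |u r| := by
    intro k i j hij hj
    have hle : dy k i ≤ dy k j :=
      min_le_min_right (1 : ℝ) (show (i : ℝ) / 2 ^ k ≤ j / 2 ^ k by gcongr)
    have h3 := hu2 (indicatorConstLp 2 (measurableSet_Ioc (a := (dy k i : ℝ)) (b := dy k j))
      (measure_ne_top ν _) (1 : ℝ))
    simp only [hI _ _ _ hle] at h3
    rw [intervalIntegral.integral_of_le hle]
    refine le_trans (ge_of_tendsto h3 ?_) ((le_abs_self _).trans abs_integral_le_integral_abs)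
    refine Nat.hyperfilter_le_atTop ?_
    filter_upwards [eventually_ge_atTop k] with n hn'
    obtain ⟨l, rfl⟩ := Nat.exists_eq_add_of_le hn'
    have b1 : i * 2 ^ l ≤ j * 2 ^ l := by gcongr
    have b2 : j * 2 ^ l ≤ 2 ^ (k + l) := by
      rw [pow_add]
      gcongr
    have h4 := (st_int (k + l) (a (k + l)) id b1 b2).2
    have h5 : ∀ᵐ r ∂volume.restrict (Ioc (dy k i : ℝ) (dy k j)),
        (h2 (k + l)).toLp _ r = st (k + l) (a (k + l)) r :=
      ae_restrict_of_ae_restrict_of_subset (Ioc_subset_Ioc (dy k i).2.1 (dy k j).2.2)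
        (h2 (k + l)).coeFn_toLp
    rw [integral_congr_ae h5, ← intervalIntegral.integral_of_le hle, ← dy_up (j := i) l,
      ← dy_up (j := j) l]
    change _ ≤ ∫ r in tm _ _..tm _ _, _
    rw [tm_of_le (b1.trans b2), tm_of_le b2]
    refine le_trans ?_ h4.ge
    refine (dist_le_Ico_sum_dist (fun j => γ (dy (k + l) j)) b1).trans (le_of_eq ?_)
    refine Finset.sum_congr rfl fun j _ => ?_
    simp only [a, id]
    field_simp
  refine ⟨fun r => |u r|, continuous_abs.measurable.comp hum, fun r => abs_nonneg _, hv, ?_, fun s t hst => ?_⟩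
  · rw [← ofReal_integral_eq_lintegral_ofReal hv.integrable_sq
      (Eventually.of_forall fun r => sq_nonneg _), ← ENNReal.ofReal_toReal h]
    refine ENNReal.ofReal_le_ofReal ?_
    simp only [sq_abs]
    rw [← hn, ← Real.sq_sqrt (ENNReal.toReal_nonneg (a := Ed γ))]
    gcongr
  · have hi : ∀ x : I, IntervalIntegrable (fun r => |u r|) volume 0 x := fun x =>
      (intervalIntegrable_iff_integrableOn_Ioc_of_le x.2.1).2
        (hvi.mono_set (Ioc_subset_Ioc_right x.2.2))
    have hc : Continuous fun x : I => ∫ r in (0 : ℝ)..x, |u r| := by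
      have h6 := intervalIntegral.continuousOn_primitive_interval' (hi 1) left_mem_uIcc
      exact h6.comp_continuous continuous_subtype_val fun x => by
        rw [Icc.coe_one, uIcc_of_le zero_le_one]
        exact x.2
    rw [← intervalIntegral.integral_interval_sub_left (hi t) (hi s)]
    refine le_of_tendsto_of_tendsto'
      (((γ.continuous.tendsto s).comp (dy_tendsto s)).dist ((γ.continuous.tendsto t).comp
        (dy_tendsto t)))
      (((hc.tendsto t).comp (dy_tendsto t)).sub ((hc.tendsto s).comp (dy_tendsto s))) fun k => ?_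
    simp only [Function.comp_apply]
    rw [intervalIntegral.integral_interval_sub_left (hi _) (hi _)]
    exact key k _ _ (Nat.floor_le_floor (mul_le_mul_of_nonneg_right hst (by positivity)))
      (fl_le k t)

end Vale.Agent.P242W39
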